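import Vale.Agent.P092.H658.Asm

/-!
P092 (helper918): block N1 of helper859's Theorem N. One-parameter averages of normalised weights.
-/

namespace Vale.Agent.P092.H918

open Finset
open Vale.Agent.P092.H428 (line_shift)
open Vale.Agent.P092.H658 (cmp pow_inv_le)

section
variable {Γ : Type*}

/-- Unnormalised weights. -/
noncomputable def uw (F : Γ → ℝ) (b : Γ) : ℝ := ((F b) ^ 9)⁻¹

/-- Normalised weights. -/
noncomputable def bw (F : Γ → ℝ) (b : Γ) : ℝ := uw F b / ∑' b', uw F b'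

/-- Grid average. -/
noncomputable def na (F : ℝ → Γ → ℝ) (L h : ℝ) (K : ℕ) (b : Γ) : ℝ :=
  (∑ i ∈ range K, bw (F (L + (i : ℤ) * h)) b) / K

lemma uw_pos {F : Γ → ℝ} (hF : ∀ b, 0 < F b) (b : Γ) : 0 < uw F b := inv_pos.2 (pow_pos (hF b) 9)

lemma uw_summable {w F : Γ → ℝ} {c : ℝ} (hw : ∀ b, 0 < w b) (hs : Summable fun b => ((w b) ^ 9)⁻¹)
    (hc : 0 < c) (lo : ∀ b, c * w b ≤ F b) : Summable (uw F) := by
  have hF : ∀ b, 0 < F b := fun b => (mul_pos hc (hw b)).trans_le (lo b)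
  refine Summable.of_nonneg_of_le (fun b => (uw_pos hF b).le) (fun b => ?_)
    (hs.mul_left ((c⁻¹) ^ 9))
  exact pow_inv_le (hw b) (hF b) (inv_pos.2 hc) (by
    rw [← div_eq_inv_mul, le_div_iff₀ hc, mul_comm]; exact lo b)

lemma tsum_uw_pos [Nonempty Γ] {F : Γ → ℝ} (hF : ∀ b, 0 < F b) (hs : Summable (uw F)) :
    0 < ∑' b, uw F b := by
  obtain ⟨i⟩ := (inferInstance : Nonempty Γ)
  exact hs.tsum_pos (fun b => (uw_pos hF b).le) i (uw_pos hF i)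

lemma bw_nonneg {F : Γ → ℝ} (hF : ∀ b, 0 < F b) (b : Γ) : 0 ≤ bw F b :=
  div_nonneg (uw_pos hF b).le (tsum_nonneg fun b => (uw_pos hF b).le)

lemma bw_hasSum [Nonempty Γ] {F : Γ → ℝ} (hF : ∀ b, 0 < F b) (hs : Summable (uw F)) :
    HasSum (bw F) 1 := by
  have := hs.hasSum.div_const (∑' b, uw F b)
  rwa [div_self (tsum_uw_pos hF hs).ne'] at this

lemma bw_sum_le [Nonempty Γ] {F : Γ → ℝ} (hF : ∀ b, 0 < F b) (hs : Summable (uw F))
    (T : Finset Γ) : ∑ b ∈ T, bw F b ≤ 1 :=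
  sum_le_hasSum T (fun b _ => bw_nonneg hF b) (bw_hasSum hF hs)

lemma bw_le_one [Nonempty Γ] {F : Γ → ℝ} (hF : ∀ b, 0 < F b) (hs : Summable (uw F))
    (b : Γ) : bw F b ≤ 1 := by
  simpa using bw_sum_le hF hs {b}

/-- Domination of the normalised weights. -/
lemma bw_le {w F : Γ → ℝ} {c C : ℝ} (hw : ∀ b, 0 < w b) (hs : Summable fun b => ((w b) ^ 9)⁻¹)
    (hc : 0 < c) (lo : ∀ b, c * w b ≤ F b) (b₀ : Γ) (up : F b₀ ≤ C) (b : Γ) :
    bw F b ≤ C ^ 9 * (c⁻¹) ^ 9 * ((w b) ^ 9)⁻¹ := by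
  have hF : ∀ b, 0 < F b := fun b => (mul_pos hc (hw b)).trans_le (lo b)
  have hsu := uw_summable hw hs hc lo
  have hC : 0 < C := (hF b₀).trans_le up
  have : Nonempty Γ := ⟨b₀⟩
  have hZ : (C ^ 9)⁻¹ ≤ ∑' b, uw F b := by
    have e1 : (C ^ 9)⁻¹ ≤ uw F b₀ :=
      inv_anti₀ (pow_pos (hF _) 9) (pow_le_pow_left₀ (hF _).le up 9)
    exact e1.trans (hsu.le_tsum b₀ fun j _ => (uw_pos hF j).le)
  have hinv : (∑' b, uw F b)⁻¹ ≤ C ^ 9 := by
    have := inv_anti₀ (inv_pos.2 (pow_pos hC 9)) hZ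
    rwa [inv_inv] at this
  have hu : uw F b ≤ (c⁻¹) ^ 9 * ((w b) ^ 9)⁻¹ :=
    pow_inv_le (hw b) (hF b) (inv_pos.2 hc) (by
      rw [← div_eq_inv_mul, le_div_iff₀ hc, mul_comm]; exact lo b)
  have hZ0 := tsum_uw_pos hF hsu
  have hwb := hw b
  calc bw F b = uw F b * (∑' b, uw F b)⁻¹ := div_eq_mul_inv _ _
    _ ≤ ((c⁻¹) ^ 9 * ((w b) ^ 9)⁻¹) * C ^ 9 :=
        mul_le_mul hu hinv (inv_pos.2 hZ0).le (by positivity)
    _ = _ := by ring

/-- Uniform tails. -/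
lemma exists_tail {w : Γ → ℝ} {c C : ℝ} (hw : ∀ b, 0 < w b)
    (hs : Summable fun b => ((w b) ^ 9)⁻¹) (hc : 0 < c) (b₀ : Γ) {τ : ℝ} (hτ : 0 < τ) :
    ∃ B : Finset Γ, ∀ B' : Finset Γ, B ⊆ B' → ∀ F : Γ → ℝ, (∀ b, c * w b ≤ F b) → F b₀ ≤ C →
      1 - τ ≤ ∑ b ∈ B', bw F b := by
  set k : ℝ := C ^ 9 * (c⁻¹) ^ 9 with hk
  have hcs : Summable fun b => k * ((w b) ^ 9)⁻¹ := hs.mul_left k
  have h1 : ∀ᶠ B : Finset Γ in Filter.atTop,
      (∑' b, k * ((w b) ^ 9)⁻¹) - τ < ∑ b ∈ B, k * ((w b) ^ 9)⁻¹ :=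
    hcs.hasSum.eventually (lt_mem_nhds (by linarith))
  obtain ⟨B, hB⟩ := Filter.eventually_atTop.1 h1
  refine ⟨B, fun B' hB' F lo up => ?_⟩
  have : Nonempty Γ := ⟨b₀⟩
  have hF : ∀ b, 0 < F b := fun b => (mul_pos hc (hw b)).trans_le (lo b)
  have hsu := uw_summable hw hs hc lo
  have h2 : HasSum (fun b => k * ((w b) ^ 9)⁻¹ - bw F b)
      ((∑' b, k * ((w b) ^ 9)⁻¹) - 1) := hcs.hasSum.sub (bw_hasSum hF hsu)
  have h3 := sum_le_hasSum B' (fun b _ => sub_nonneg.2 (bw_le hw hs hc lo b₀ up b)) h2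
  rw [sum_sub_distrib] at h3
  have := hB B' hB'
  linarith

lemma na_nonneg {F : ℝ → Γ → ℝ} (hF : ∀ t b, 0 < F t b) (L h : ℝ) (K : ℕ) (b : Γ) :
    0 ≤ na F L h K b :=
  div_nonneg (sum_nonneg fun _ _ => bw_nonneg (hF _) _) (by positivity)

lemma na_sum (F : ℝ → Γ → ℝ) (L h : ℝ) (K : ℕ) (T : Finset Γ) :
    ∑ b ∈ T, na F L h K b = (∑ i ∈ range K, ∑ b ∈ T, bw (F (L + (i : ℤ) * h)) b) / K := by
  unfold na
  rw [← sum_div, sum_comm]

lemma na_sum_le [Nonempty Γ] {F : ℝ → Γ → ℝ} (hF : ∀ t b, 0 < F t b)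
    (hs : ∀ t, Summable (uw (F t))) (L h : ℝ) {K : ℕ} (hK : 0 < K) (T : Finset Γ) :
    ∑ b ∈ T, na F L h K b ≤ 1 := by
  rw [na_sum, div_le_one (by positivity)]
  calc ∑ i ∈ range K, ∑ b ∈ T, bw (F (L + (i : ℤ) * h)) b
      ≤ ∑ i ∈ range K, (1 : ℝ) := sum_le_sum fun i _ => bw_sum_le (hF _) (hs _) T
    _ = K := by simp

lemma le_na_sum (F : ℝ → Γ → ℝ) (L h : ℝ) {K : ℕ} (hK : 0 < K) (T : Finset Γ) {a : ℝ}
    (ha : ∀ i : ℕ, i < K → a ≤ ∑ b ∈ T, bw (F (L + (i : ℤ) * h)) b) :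
    a ≤ ∑ b ∈ T, na F L h K b := by
  rw [na_sum, le_div_iff₀ (by positivity)]
  calc a * (K : ℝ) = ∑ i ∈ range K, a := by simp; ring
    _ ≤ _ := sum_le_sum fun i hi => ha i (mem_range.1 hi)

/-- Comparison of the averages along a shift of the grid. -/
lemma na_cmp [Nonempty Γ] {F G : ℝ → Γ → ℝ} (hF : ∀ t b, 0 < F t b) (hG : ∀ t b, 0 < G t b)
    (sF : ∀ t, Summable (uw (F t))) (sG : ∀ t, Summable (uw (G t)))
    {L h : ℝ} {K : ℕ} (hK : 0 < K) {p r : ℝ} (hp : 0 < p) (hr : 1 ≤ r) (m : ℤ)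
    (h1 : ∀ i : ℕ, i < K → ∀ b,
      p * F (L + (((i : ℤ) + m : ℤ) : ℝ) * h) b ≤ r * G (L + (i : ℤ) * h) b)
    (h2 : ∀ i : ℕ, i < K → ∀ b,
      G (L + (i : ℤ) * h) b ≤ r * (p * F (L + (((i : ℤ) + m : ℤ) : ℝ) * h) b))
    (T : Finset Γ) :
    ∑ b ∈ T, |na F L h K b - na G L h K b| ≤ ((r ^ 9) ^ 2 - 1) + 2 * |(m : ℝ)| / K := by
  have hK' : (0 : ℝ) < K := by exact_mod_cast hK
  set A : ℤ → Γ → ℝ := fun x b => bw (F (L + x * h)) b with hA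
  set D : ℤ → Γ → ℝ := fun x b => bw (G (L + x * h)) b with hD
  have hA1 : ∀ x, ∑ b ∈ T, |A x b| ≤ 1 := by
    intro x
    have e1 : ∑ b ∈ T, |A x b| = ∑ b ∈ T, bw (F (L + x * h)) b :=
      sum_congr rfl fun b _ => abs_of_nonneg (bw_nonneg (hF _) _)
    rw [e1]
    exact bw_sum_le (hF _) (sF _) _
  have hgrid := line_shift A T hA1 K m
  have hpt : ∀ b ∈ T, |na F L h K b - na G L h K b| ≤
      (|∑ x ∈ range K, (A (x + m) b - A x b)| +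
        ∑ x ∈ range K, |D x b - A (x + m) b|) / (K : ℝ) := by
    intro b _
    have e2 : na F L h K b - na G L h K b =
        (-(∑ x ∈ range K, (A (x + m) b - A x b)) -
          ∑ x ∈ range K, (D x b - A (x + m) b)) / (K : ℝ) := by
      simp only [na, sum_sub_distrib, hA, hD]
      ring
    rw [e2, abs_div, abs_of_pos hK']
    refine div_le_div_of_nonneg_right ?_ hK'.le
    refine (abs_sub _ _).trans ?_
    rw [abs_neg]
    exact add_le_add le_rfl (abs_sum_le_sum_abs _ _)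
  calc ∑ b ∈ T, |na F L h K b - na G L h K b|
      ≤ ∑ b ∈ T, (|∑ x ∈ range K, (A (x + m) b - A x b)| +
        ∑ x ∈ range K, |D x b - A (x + m) b|) / (K : ℝ) := sum_le_sum hpt
    _ = (∑ b ∈ T, |∑ x ∈ range K, (A (x + m) b - A x b)| +
        ∑ x ∈ range K, ∑ b ∈ T, |D x b - A (x + m) b|) / (K : ℝ) := by
        rw [← sum_div, sum_add_distrib]
        congr 2
        exact sum_comm
    _ ≤ (2 * |(m : ℝ)| * 1 + ∑ x ∈ range K, ((r ^ 9) ^ 2 - 1)) / (K : ℝ) := by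
        refine div_le_div_of_nonneg_right (add_le_add hgrid ?_) hK'.le
        exact sum_le_sum fun x hx => cmp (fun b => F (L + (((x : ℤ) + m : ℤ) : ℝ) * h) b)
          (fun b => G (L + (x : ℤ) * h) b) (hF _) (hG _) (sF _) (sG _) hp hr
          (h1 x (mem_range.1 hx)) (h2 x (mem_range.1 hx)) T
    _ = _ := by
        simp only [sum_const, card_range, nsmul_eq_mul]
        field_simp
        ring

/-- Two gauges which are comparable up to a factor. -/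
lemma bw_ge [Nonempty Γ] {F G : Γ → ℝ} (hF : ∀ b, 0 < F b) (hG : ∀ b, 0 < G b)
    (sF : Summable (uw F)) (sG : Summable (uw G)) {k : ℝ} (hk : 0 < k)
    (h1 : ∀ b, F b ≤ G b) (h2 : ∀ b, G b ≤ k * F b) (b : Γ) :
    (k ^ 9)⁻¹ * bw G b ≤ bw F b := by
  have hZF := tsum_uw_pos hF sF
  have hZG := tsum_uw_pos hG sG
  have e1 : uw G b ≤ uw F b := inv_anti₀ (pow_pos (hF b) 9) (pow_le_pow_left₀ (hF b).le (h1 b) 9)
  have e2 : ∑' b, uw F b ≤ k ^ 9 * ∑' b, uw G b := by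
    rw [← tsum_mul_left]
    refine sF.tsum_le_tsum (fun b => ?_) (sG.mul_left _)
    exact pow_inv_le (hG b) (hF b) hk (h2 b)
  have hk9 : 0 < k ^ 9 := pow_pos hk 9
  unfold bw
  rw [← div_eq_inv_mul, div_div, div_le_div_iff₀ (by positivity) hZF]
  calc uw G b * ∑' b, uw F b ≤ uw F b * (k ^ 9 * ∑' b, uw G b) :=
        mul_le_mul e1 e2 hZF.le (uw_pos hF b).le
    _ = _ := by ring

lemma na_ge [Nonempty Γ] {F G : ℝ → Γ → ℝ} (hF : ∀ t b, 0 < F t b) (hG : ∀ t b, 0 < G t b)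
    (sF : ∀ t, Summable (uw (F t))) (sG : ∀ t, Summable (uw (G t))) {k : ℝ} (hk : 0 < k)
    (h1 : ∀ t b, F t b ≤ G t b) (h2 : ∀ t b, G t b ≤ k * F t b) (L h : ℝ) (K : ℕ) (b : Γ) :
    (k ^ 9)⁻¹ * na G L h K b ≤ na F L h K b := by
  unfold na
  rw [mul_div_assoc', mul_sum]
  exact div_le_div_of_nonneg_right (sum_le_sum fun i _ =>
    bw_ge (hF _) (hG _) (sF _) (sG _) hk (h1 _) (h2 _) b) (by positivity)

/-- Translation invariance. -/
lemma bw_mul_left [Group Γ] (F : Γ → ℝ) (s b : Γ) :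
    bw (fun b => F (s * b)) b = bw F (s * b) := by
  unfold bw
  congr 1
  exact (Equiv.mulLeft s).tsum_eq (uw F)

lemma na_mul_left [Group Γ] (F : ℝ → Γ → ℝ) (L h : ℝ) (K : ℕ) (s b : Γ) :
    na (fun t b => F t (s * b)) L h K b = na F L h K (s * b) := by
  unfold na
  congr 1
  exact sum_congr rfl fun i _ => bw_mul_left _ s b

end

end Vale.Agent.P092.H918
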