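import Mathlib
import Vale.Agent.P092.H132.REst

/-!
P092 (helper918): block N1 of helper859's Theorem N. The one-parameter gauge
`fN t g b = tr bᵀ (NS g + e^{-t} (1 - NN g)) b` and the comparison gauge
`f0 t g b = tr bᵀ (NS g + e^{-t}) b`: elementary estimates.
-/

namespace Vale.Agent.P092.H918

open Vale.Agent.P092.H553 Vale.Agent.P092.H132 Matrix

/-- The one-parameter gauge (`(1 - NN g) / 2 = (N - N²)/tr (N - N²)`, `N = NS g`). -/
noncomputable def fN (t : ℝ) (g b : G3) : ℝ :=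
  rA (g⁻¹ * b) / rB g + Real.exp (-t) * (rA b - hs ((rm g)ᵀ * rm b) / rA g)

/-- The comparison gauge, a function of `NS g`. -/
noncomputable def f0 (t : ℝ) (g b : G3) : ℝ :=
  rA (g⁻¹ * b) / rB g + Real.exp (-t) * rA b

lemma fN_eq (t : ℝ) (g b : G3) :
    fN t g b = qf (NS g) b + Real.exp (-t) * (rA b - qf (NN g) b) := by
  rw [fN, qf_NS, qf_NN]

lemma f0_eq (t : ℝ) (g b : G3) : f0 t g b = qf (NS g) b + Real.exp (-t) * rA b := by
  rw [f0, qf_NS]

lemma hs_NN (g : G3) : hs (NN g) = 1 - 2 / G12 g := by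
  have hA := rA_pos g
  have hB := rB_pos g
  have h := key (rm g) 1
  rw [Matrix.one_mul, Matrix.one_mul, Matrix.one_mul, hs_transpose, ← rB_eq] at h
  have h3 : hs (1 : Matrix (Fin 3) (Fin 3) ℝ) = 3 := by
    simp [hs, Matrix.one_apply]
  rw [h3] at h
  have h4 : hs (rm g) = rA g := rfl
  rw [h4] at h
  rw [NN, hs_smul, G12]
  field_simp
  linarith

lemma G12_pos (g : G3) : 0 < G12 g := by linarith [G12_ge g]

lemma qf_NN_le' (g b : G3) : qf (NN g) b ≤ (1 - 1 / G12 g) * rA b := by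
  have h := (le_abs_self _).trans (abs_qf_le (NN g) b)
  refine h.trans (mul_le_mul_of_nonneg_right ?_ (rA_pos b).le)
  have hG := G12_ge g
  have h1 : 1 / G12 g ≤ 1 := by
    rw [div_le_one (by linarith)]; linarith
  rw [hs_NN]
  refine Real.sqrt_le_iff.2 ⟨by linarith, ?_⟩
  have : 2 / G12 g = 2 * (1 / G12 g) := by ring
  rw [this]
  nlinarith [sq_nonneg (1 / G12 g)]

lemma fN_ge (t : ℝ) (g b : G3) : Real.exp (-t) * (rA b / G12 g) ≤ fN t g b := by
  rw [fN_eq]
  have h1 := qf_NS_nonneg g b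
  have h2 := qf_NN_le' g b
  have h3 : rA b / G12 g ≤ rA b - qf (NN g) b := by
    have : (1 - 1 / G12 g) * rA b = rA b - rA b / G12 g := by ring
    linarith
  have h4 := mul_le_mul_of_nonneg_left h3 (Real.exp_pos (-t)).le
  linarith

lemma fN_pos (t : ℝ) (g b : G3) : 0 < fN t g b :=
  lt_of_lt_of_le (mul_pos (Real.exp_pos _) (div_pos (rA_pos b) (G12_pos g))) (fN_ge t g b)

lemma f0_ge (t : ℝ) (g b : G3) : Real.exp (-t) * rA b ≤ f0 t g b := by
  rw [f0_eq]
  linarith [qf_NS_nonneg g b]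

lemma f0_pos (t : ℝ) (g b : G3) : 0 < f0 t g b :=
  lt_of_lt_of_le (mul_pos (Real.exp_pos _) (rA_pos b)) (f0_ge t g b)

lemma fN_le_f0 (t : ℝ) (g b : G3) : fN t g b ≤ f0 t g b := by
  rw [fN_eq, f0_eq]
  have := mul_le_mul_of_nonneg_left (show rA b - qf (NN g) b ≤ rA b by
    linarith [qf_NN_nonneg g b]) (Real.exp_pos (-t)).le
  linarith

lemma f0_le_fN (t : ℝ) (g b : G3) : f0 t g b ≤ G12 g * fN t g b := by
  have hG := G12_ge g
  have h1 := qf_NS_nonneg g b
  have h2 := qf_NN_le' g b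
  have h3 : rA b ≤ G12 g * (rA b - qf (NN g) b) := by
    have e : (1 - 1 / G12 g) * rA b = rA b - rA b / G12 g := by ring
    have h4 : rA b / G12 g ≤ rA b - qf (NN g) b := by linarith
    rw [div_le_iff₀ (by linarith)] at h4
    linarith
  have h4 := mul_le_mul_of_nonneg_left h3 (Real.exp_pos (-t)).le
  have h5 : qf (NS g) b ≤ G12 g * qf (NS g) b := by nlinarith
  rw [fN_eq, f0_eq]
  linarith

lemma f0_le (t : ℝ) (g b : G3) (h1 : 0 ≤ t) : f0 t g b ≤ 2 * rA b := by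
  rw [f0_eq]
  have hA := rA_pos b
  have a1 := qf_NS_le g b
  have e1 : Real.exp (-t) ≤ 1 := Real.exp_le_one_iff.2 (by linarith)
  have b1 : Real.exp (-t) * rA b ≤ 1 * rA b := mul_le_mul_of_nonneg_right e1 hA.le
  linarith

lemma fN_le (t : ℝ) (g b : G3) (h1 : 0 ≤ t) : fN t g b ≤ 2 * rA b :=
  (fN_le_f0 t g b).trans (f0_le t g b h1)

lemma fN_shift (t d : ℝ) (g b : G3) : fN (t + d) g b ≤ Real.exp |d| * fN t g b := by
  rw [fN_eq, fN_eq]
  have a1 := qf_NS_nonneg g b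
  have a3 := qf_NN_le g b
  have c1 : -d ≤ |d| := neg_le_abs d
  have e0 : 1 ≤ Real.exp |d| := Real.one_le_exp (abs_nonneg d)
  have b0 : qf (NS g) b ≤ Real.exp |d| * qf (NS g) b := by nlinarith
  have b1 : Real.exp (-(t + d)) * (rA b - qf (NN g) b) ≤
      Real.exp |d| * (Real.exp (-t) * (rA b - qf (NN g) b)) := by
    rw [← mul_assoc, ← Real.exp_add]
    exact mul_le_mul_of_nonneg_right (Real.exp_le_exp.2 (by linarith)) (by linarith)
  rw [mul_add]
  linarith

lemma rA_le_f0 (t : ℝ) (g b : G3) : rA b ≤ Real.exp t * f0 t g b := by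
  have h := mul_le_mul_of_nonneg_left (f0_ge t g b) (Real.exp_pos t).le
  rwa [← mul_assoc, ← Real.exp_add, show t + (-t) = 0 by ring, Real.exp_zero,
    one_mul] at h

/-- `f0` is Lipschitz in `NS g`. -/
lemma f0_lip (t : ℝ) (g g' b : G3) :
    |f0 t g b - f0 t g' b| ≤ Real.exp t * Real.sqrt (hs (NS g - NS g')) * f0 t g b := by
  have e : f0 t g b - f0 t g' b = qf (NS g - NS g') b := by
    rw [f0_eq, f0_eq, ← qf_sub]; ring
  rw [e]
  calc |qf (NS g - NS g') b| ≤ Real.sqrt (hs (NS g - NS g')) * rA b := abs_qf_le _ _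
    _ ≤ Real.sqrt (hs (NS g - NS g')) * (Real.exp t * f0 t g b) :=
      mul_le_mul_of_nonneg_left (rA_le_f0 t g b) (Real.sqrt_nonneg _)
    _ = _ := by ring

end Vale.Agent.P092.H918
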