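import Vale.Agent.P092.H918.FN
import Vale.Agent.P092.H918.Asm1
import Vale.Agent.P092.H658.AmenFun

/-!
P092 (helper918): block N1 of helper859's Theorem N, assembly: the functions `wall_fun`, from the
left estimate of the one-parameter gauge.
-/

namespace Vale.Agent.P092.H918

open Finset
open Vale.Agent.P092.H553 Vale.Agent.P092.H132
open Vale.Agent.P092.H428 (norm_compare_pt)
open Vale.Agent.P092.H658 (pow_inv_le exists_bound rA_ratio rB_ratio abs_log_ratio)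

/-- The left estimate for the one-parameter gauge. -/
def LeftN : Prop :=
  ∃ C0 : ℝ, 0 < C0 ∧ ∀ (κ θ e t : ℝ) (s g b : G3), rA s ≤ κ → rB s ≤ κ → e ≤ 1 / 2 →
    6 / G23 g ≤ e → Real.exp (-t / 2) ≤ θ → θ ≤ 1 →
    |rB (s * g) / rB g * fN (t + Real.log ((rB (s * g) / rB g) ^ 2 / (rA (s * g) / rA g)))
        (s * g) (s * b) - fN t g b| ≤ C0 * κ ^ 3 * (θ + e) * fN t g b

lemma sqrt_sub_sq_le {x y : ℝ} (hx : 0 ≤ x) (hy : 0 ≤ y) :
    (Real.sqrt x - Real.sqrt y) ^ 2 ≤ |x - y| := by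
  have e1 := Real.sq_sqrt hx
  have e2 := Real.sq_sqrt hy
  have p1 := Real.sqrt_nonneg x
  have p2 := Real.sqrt_nonneg y
  set a := Real.sqrt x
  set b := Real.sqrt y
  rw [← e1, ← e2]
  rcases le_total a b with h | h
  · have : |a ^ 2 - b ^ 2| = b ^ 2 - a ^ 2 := by
      rw [abs_sub_comm, abs_of_nonneg]; nlinarith
    rw [this]; nlinarith
  · have : |a ^ 2 - b ^ 2| = a ^ 2 - b ^ 2 := abs_of_nonneg (by nlinarith)
    rw [this]; nlinarith

lemma abs_sqrt_sub_le {x y k : ℝ} (hx : 0 < x) (hx1 : x ≤ 1) (hy : 0 ≤ y) (h : |y - x| ≤ k * x) :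
    |Real.sqrt x - Real.sqrt y| ≤ k := by
  have e1 := Real.sq_sqrt hx.le
  have e2 := Real.sq_sqrt hy
  have p1 := Real.sqrt_pos.2 hx
  have p2 := Real.sqrt_nonneg y
  have hk : 0 ≤ k := by
    by_contra hlt
    push Not at hlt
    have := abs_nonneg (y - x)
    nlinarith
  have hs1 : Real.sqrt x ≤ 1 := Real.sqrt_le_one.2 hx1
  set a := Real.sqrt x
  set b := Real.sqrt y
  have h1 : |a - b| * a ≤ |y - x| := by
    rw [← e1, ← e2, show b ^ 2 - a ^ 2 = -((a - b) * (a + b)) by ring, abs_neg, abs_mul]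
    refine mul_le_mul_of_nonneg_left ?_ (abs_nonneg _)
    rw [abs_of_nonneg (by linarith)]
    linarith
  have h2 : |a - b| * a ≤ (k * a) * a := by
    calc |a - b| * a ≤ |y - x| := h1
      _ ≤ k * x := h
      _ = (k * a) * a := by rw [← e1]; ring
  have h3 := le_of_mul_le_mul_right h2 p1
  nlinarith

lemma pow18_sub_one_le {r : ℝ} (hr : 1 ≤ r) : (r ^ 9) ^ 2 - 1 ≤ 18 * r ^ 17 * (r - 1) := by
  rw [← pow_mul, ← geom_sum_mul r (9 * 2)]
  refine mul_le_mul_of_nonneg_right ?_ (by linarith)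
  calc ∑ i ∈ range (9 * 2), r ^ i ≤ ∑ i ∈ range (9 * 2), r ^ 17 :=
        sum_le_sum fun i hi => pow_le_pow_right₀ hr (by
          have := mem_range.1 hi; omega)
    _ = _ := by simp

lemma G12_mul_le {κ : ℝ} {s : G3} (h1 : rA s ≤ κ) (h2 : rB s ≤ κ) (g : G3) :
    G12 (s * g) ≤ κ ^ 3 * G12 g := by
  have hκ : 0 < κ := lt_of_lt_of_le (rA_pos s) h1
  have hA := rA_pos g
  have hB := rB_pos g
  have hA' := rA_pos (s * g)
  have hB' := rB_pos (s * g)
  obtain ⟨-, a1⟩ := rA_ratio h1 h2 g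
  obtain ⟨a2, -⟩ := rB_ratio h1 h2 g
  rw [div_le_iff₀ hA] at a1
  rw [le_div_iff₀ hB, inv_mul_le_iff₀ hκ] at a2
  unfold G12
  rw [div_le_iff₀ hB']
  calc rA (s * g) ^ 2 ≤ (κ * rA g) ^ 2 := pow_le_pow_left₀ hA'.le a1 2
    _ = κ ^ 2 * rA g ^ 2 / rB g * rB g := by field_simp
    _ ≤ κ ^ 2 * rA g ^ 2 / rB g * (κ * rB (s * g)) :=
        mul_le_mul_of_nonneg_left a2 (by positivity)
    _ = _ := by ring

/-- The comparison of the normalised weights of `f0`. -/
lemma bw_f0_lip (Γ : Subgroup G3) {t T : ℝ} (h0 : t ≤ T) (h h' b : Γ) :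
    |bw (fun b : Γ => f0 t h' b) b - bw (fun b : Γ => f0 t h b) b| ≤
      (18 * (1 + 2 * Real.exp T) ^ 17 * Real.exp T *
        Real.sqrt (hs (NS (h : G3) - NS (h' : G3)))) * bw (fun b : Γ => f0 t h b) b := by
  set d := Real.sqrt (hs (NS (h : G3) - NS (h' : G3))) with hd
  have hd0 : 0 ≤ d := Real.sqrt_nonneg _
  have hd2 : d ≤ 2 := by
    rw [hd]
    refine Real.sqrt_le_iff.2 ⟨by norm_num, ?_⟩
    have := hs_sub_le (NS (h : G3)) (NS (h' : G3))
    have a1 := hs_NS_le (h : G3)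
    have a2 := hs_NS_le (h' : G3)
    linarith
  have hsumm := H377.summable_rA.comp_injective (Subtype.val_injective (p := (· ∈ Γ)))
  have hpos : ∀ g b : Γ, 0 < f0 t g b := fun g b => f0_pos _ _ _
  have hsu : ∀ g : Γ, Summable (uw fun b : Γ => f0 t g b) := fun g =>
    uw_summable (w := fun b : Γ => rA (b : G3)) (fun b => rA_pos _) hsumm (Real.exp_pos (-t))
      (fun b => f0_ge t g b)
  have hsym : Real.sqrt (hs (NS (h' : G3) - NS (h : G3))) = d := by rw [hd, hs_sub_comm]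
  have heT : Real.exp t ≤ Real.exp T := Real.exp_le_exp.2 h0
  set r : ℝ := 1 + Real.exp T * d with hr
  have hr1 : 1 ≤ r := by
    have := mul_nonneg (Real.exp_pos T).le hd0
    linarith
  have hr2 : r ≤ 1 + 2 * Real.exp T := by
    have := mul_le_mul_of_nonneg_left hd2 (Real.exp_pos T).le
    linarith
  have c1 : ∀ b : Γ, f0 t h' b ≤ r * f0 t h b := by
    intro b
    have a1 := (abs_le.1 (f0_lip t h h' b)).1
    rw [← hd] at a1
    have a2 : Real.exp t * d * f0 t h b ≤ Real.exp T * d * f0 t h b :=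
      mul_le_mul_of_nonneg_right (mul_le_mul_of_nonneg_right heT hd0) (hpos h b).le
    rw [hr, add_mul]; linarith
  have c2 : ∀ b : Γ, f0 t h b ≤ r * f0 t h' b := by
    intro b
    have a1 := (abs_le.1 (f0_lip t h' h b)).1
    rw [hsym] at a1
    have a2 : Real.exp t * d * f0 t h' b ≤ Real.exp T * d * f0 t h' b :=
      mul_le_mul_of_nonneg_right (mul_le_mul_of_nonneg_right heT hd0) (hpos h' b).le
    rw [hr, add_mul]; linarith
  have main := norm_compare_pt (uw fun b : Γ => f0 t h b) (uw fun b : Γ => f0 t h' b)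
    (fun b => uw_pos (hpos h) b) (fun b => uw_pos (hpos h') b) (hsu h) (hsu h')
    (c := 1) one_pos (one_le_pow₀ hr1 (n := 9))
    (fun b => by
      rw [one_mul]
      exact pow_inv_le (hpos h' b) (hpos h b) (by linarith) (c1 b))
    (fun b => by
      rw [one_mul]
      exact pow_inv_le (hpos h b) (hpos h' b) (by linarith) (c2 b)) b
  refine main.trans (mul_le_mul_of_nonneg_right ?_ (bw_nonneg (hpos h) b))
  refine (pow18_sub_one_le hr1).trans ?_
  have e1 : r - 1 = Real.exp T * d := by rw [hr]; ring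
  rw [e1]
  have e2 : r ^ 17 ≤ (1 + 2 * Real.exp T) ^ 17 := pow_le_pow_left₀ (by linarith) hr2 17
  calc 18 * r ^ 17 * (Real.exp T * d) ≤ 18 * (1 + 2 * Real.exp T) ^ 17 * (Real.exp T * d) := by
        gcongr
    _ = _ := by ring

/-- The comparison of the gauges at `(g, b)` and `(s g, s b)` along the grid. -/
lemma left_cmp {C0 : ℝ} (hC0 : 0 < C0)
    (hL : ∀ (κ θ e t : ℝ) (s g b : G3), rA s ≤ κ → rB s ≤ κ → e ≤ 1 / 2 →
      6 / G23 g ≤ e → Real.exp (-t / 2) ≤ θ → θ ≤ 1 →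
      |rB (s * g) / rB g * fN (t + Real.log ((rB (s * g) / rB g) ^ 2 / (rA (s * g) / rA g)))
        (s * g) (s * b) - fN t g b| ≤ C0 * κ ^ 3 * (θ + e) * fN t g b)
    {κ : ℝ} (hκ : 0 < κ) {δ : ℝ} (hδ : 0 < δ) :
    ∃ L M : ℝ, 0 ≤ L ∧ 0 < M ∧ ∀ s g : G3, rA s ≤ κ → rB s ≤ κ → M ≤ G23 g →
      ∃ (p : ℝ) (m : ℤ), 0 < p ∧ |(m : ℝ)| ≤ 3 * Real.log κ / (δ / 2) + 1 ∧ ∀ i : ℕ, ∀ b : G3,
        p * fN (L + (((i : ℤ) + m : ℤ) : ℝ) * (δ / 2)) (s * g) (s * b) ≤
          Real.exp δ * fN (L + (i : ℤ) * (δ / 2)) g b ∧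
        fN (L + (i : ℤ) * (δ / 2)) g b ≤
          Real.exp δ * (p * fN (L + (((i : ℤ) + m : ℤ) : ℝ) * (δ / 2)) (s * g) (s * b)) := by
  have h2e : ∀ x : ℝ, 1 + (1 - Real.exp (-x)) ≤ Real.exp x := by
    intro x
    have a1 := Real.exp_pos x
    have a2 := Real.exp_pos (-x)
    have a3 : Real.exp x * Real.exp (-x) = 1 := by rw [← Real.exp_add]; simp
    nlinarith [sq_nonneg (Real.exp x - 1)]
  set ρ : ℝ := 1 - Real.exp (-(δ / 2)) with hρ
  have hρp : 0 < ρ := by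
    rw [hρ, sub_pos, Real.exp_lt_one_iff]; linarith
  set x : ℝ := ρ / (2 * (C0 * κ ^ 3)) with hx
  have hxp : 0 < x := by positivity
  set θ : ℝ := min 1 x with hθ
  have hθp : 0 < θ := lt_min one_pos hxp
  set e : ℝ := min (1 / 2) x with he
  have hep : 0 < e := lt_min (by norm_num) hxp
  have hcoef : C0 * κ ^ 3 * (θ + e) ≤ ρ := by
    have a1 : θ + e ≤ x + x := add_le_add (min_le_right _ _) (min_le_right _ _)
    have a2 : C0 * κ ^ 3 * (θ + e) ≤ C0 * κ ^ 3 * (x + x) :=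
      mul_le_mul_of_nonneg_left a1 (by positivity)
    have a3 : C0 * κ ^ 3 * (x + x) = ρ := by
      rw [hx]; field_simp; ring
    linarith
  refine ⟨-2 * Real.log θ, 6 / e, ?_, by positivity, ?_⟩
  · have : Real.log θ ≤ 0 := Real.log_nonpos hθp.le (min_le_left _ _)
    linarith
  intro s g h1 h2 hM
  obtain ⟨hq1, hq2⟩ := rA_ratio h1 h2 g
  obtain ⟨hp1, hp2⟩ := rB_ratio h1 h2 g
  set σ : ℝ := Real.log ((rB (s * g) / rB g) ^ 2 / (rA (s * g) / rA g)) with hσ
  have hσC : |σ| ≤ 3 * Real.log κ := abs_log_ratio hκ hp1 hp2 hq1 hq2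
  set h : ℝ := δ / 2 with hh
  have hhp : 0 < h := by rw [hh]; linarith
  set p : ℝ := rB (s * g) / rB g with hp
  have hpp : 0 < p := div_pos (rB_pos _) (rB_pos _)
  set m : ℤ := ⌊σ / h⌋ with hm
  have a1 := Int.floor_le (σ / h)
  have a2 := Int.lt_floor_add_one (σ / h)
  rw [← hm] at a1 a2
  have a3 : |σ / h| ≤ 3 * Real.log κ / h := by
    rw [abs_div, abs_of_pos hhp]
    exact div_le_div_of_nonneg_right hσC hhp.le
  have a4 := abs_le.1 a3
  have b1 : σ = (σ / h) * h := by field_simp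
  have hd : |σ - m * h| ≤ h := by
    rw [abs_le]
    constructor
    · nlinarith
    · nlinarith
  refine ⟨p, m, hpp, by rw [abs_le]; constructor <;> linarith, ?_⟩
  intro i b
  set L : ℝ := -2 * Real.log θ with hLd
  set t : ℝ := L + ((i : ℤ) : ℝ) * h with ht
  have htL : L ≤ t := by
    have : 0 ≤ ((i : ℤ) : ℝ) * h := by
      have : (0 : ℝ) ≤ ((i : ℤ) : ℝ) := by simp
      positivity
    linarith
  have hexp : Real.exp (-t / 2) ≤ θ := by
    rw [← Real.le_log_iff_exp_le hθp]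
    linarith
  have h23 : 6 / G23 g ≤ e := by
    have h6 : 0 < 6 / e := by positivity
    rw [div_le_iff₀ (lt_of_lt_of_le h6 hM)]
    rw [div_le_iff₀ hep] at hM
    linarith
  have h0 := hL κ θ e t s g b h1 h2 (min_le_left _ _) h23 hexp (min_le_left _ _)
  have hZ : 0 < fN t g b := fN_pos _ _ _
  have h0' := abs_le.1 (h0.trans (mul_le_mul_of_nonneg_right hcoef hZ.le))
  have q1 : L + (((i : ℤ) + m : ℤ) : ℝ) * h = (t + σ) + (-(σ - m * h)) := by
    rw [ht]; push_cast; ring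
  have l1 := fN_shift (t + σ) (-(σ - m * h)) (s * g) (s * b)
  have l2 := fN_shift ((t + σ) + (-(σ - m * h))) (σ - m * h) (s * g) (s * b)
  have q3 : (t + σ) + (-(σ - m * h)) + (σ - m * h) = t + σ := by ring
  rw [q3] at l2
  rw [abs_neg] at l1
  rw [q1]
  have hX : 0 < fN ((t + σ) + (-(σ - m * h))) (s * g) (s * b) := fN_pos _ _ _
  have hY : 0 < fN (t + σ) (s * g) (s * b) := fN_pos _ _ _
  set X := fN ((t + σ) + (-(σ - m * h))) (s * g) (s * b)
  set Y := fN (t + σ) (s * g) (s * b)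
  set Z := fN t g b
  have hle : Real.exp |σ - m * h| ≤ Real.exp (δ / 2) := Real.exp_le_exp.2 hd
  have l1' : X ≤ Real.exp (δ / 2) * Y := l1.trans (mul_le_mul_of_nonneg_right hle hY.le)
  have l2' : Y ≤ Real.exp (δ / 2) * X := l2.trans (mul_le_mul_of_nonneg_right hle hX.le)
  have hrr : Real.exp (δ / 2) * Real.exp (δ / 2) = Real.exp δ := by
    rw [← Real.exp_add]; congr 1; ring
  have hee : Real.exp (-(δ / 2)) * Real.exp (δ / 2) = 1 := by
    rw [← Real.exp_add]; simp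
  have u1 : p * Y ≤ Real.exp (δ / 2) * Z := by
    have := h2e (δ / 2)
    have : (1 + ρ) * Z ≤ Real.exp (δ / 2) * Z := mul_le_mul_of_nonneg_right this hZ.le
    linarith [h0'.2]
  have u2 : Z ≤ Real.exp (δ / 2) * (p * Y) := by
    have e1 : Real.exp (-(δ / 2)) * Z ≤ p * Y := by
      have : Real.exp (-(δ / 2)) = 1 - ρ := by rw [hρ]; ring
      rw [this]; linarith [h0'.1]
    have e2 := mul_le_mul_of_nonneg_left e1 (Real.exp_pos (δ / 2)).le
    have e3 : Real.exp (δ / 2) * (Real.exp (-(δ / 2)) * Z) = Z := by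
      rw [← mul_assoc, mul_comm (Real.exp (δ / 2)), hee, one_mul]
    rwa [e3] at e2
  constructor
  · calc p * X ≤ p * (Real.exp (δ / 2) * Y) := mul_le_mul_of_nonneg_left l1' hpp.le
      _ = Real.exp (δ / 2) * (p * Y) := by ring
      _ ≤ Real.exp (δ / 2) * (Real.exp (δ / 2) * Z) :=
          mul_le_mul_of_nonneg_left u1 (Real.exp_pos _).le
      _ = Real.exp δ * Z := by rw [← mul_assoc, hrr]
  · calc Z ≤ Real.exp (δ / 2) * (p * Y) := u2
      _ ≤ Real.exp (δ / 2) * (p * (Real.exp (δ / 2) * X)) :=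
          mul_le_mul_of_nonneg_left (mul_le_mul_of_nonneg_left l2' hpp.le)
            (Real.exp_pos _).le
      _ = Real.exp δ * (p * X) := by rw [← hrr]; ring

lemma exp_delta {x : ℝ} (hx : 0 < x) : ((Real.exp (Real.log (1 + x) / 18)) ^ 9) ^ 2 - 1 = x := by
  rw [← pow_mul, ← Real.exp_nat_mul]
  have : ((9 * 2 : ℕ) : ℝ) * (Real.log (1 + x) / 18) = Real.log (1 + x) := by
    push_cast; ring
  rw [this, Real.exp_log (by linarith)]
  ring

/-- Block N1: the functions at the wall, from the left estimate. -/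
theorem wall_fun_of (hLN : LeftN) (R1 : ℝ) :
    ∃ c : ℝ, 0 < c ∧ ∀ (Γ : Subgroup G3) [DecidableEq Γ] (S : Finset Γ) (ε : ℝ), 0 < ε →
      ∀ Rn : ℝ, ∃ (B : Finset Γ) (α β : Γ → Γ → ℝ) (M L : ℝ),
        (∀ b h, 0 ≤ α b h) ∧ (∀ b ∉ B, ∀ h, α b h = 0) ∧ (∀ h, ∑ b ∈ B, α b h ^ 2 ≤ 1) ∧
        (∀ s ∈ S, ∀ h : Γ, G12 (h : G3) ≤ Rn → M ≤ G23 (h : G3) →
          ∑ b ∈ B ∪ B.image (fun b => s⁻¹ * b), (α (s * b) (s * h) - α b h) ^ 2 ≤ ε) ∧
        (∀ b h, 0 ≤ β b h) ∧ (∀ b ∉ B, ∀ h, β b h = 0) ∧ (∀ h, ∑ b ∈ B, β b h ^ 2 ≤ 1) ∧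
        (∀ b h h', |β b h - β b h'| ≤ L * Real.sqrt (hs (NS (h : G3) - NS (h' : G3)))) ∧
        (∀ h : Γ, G12 (h : G3) ≤ R1 → M ≤ G23 (h : G3) → c ≤ ∑ b ∈ B, α b h * β b h) := by
  obtain ⟨C0, hC0, hL⟩ := hLN
  set k1 : ℝ := max R1 3 with hk1
  have hk1p : 0 < k1 := lt_of_lt_of_le (by norm_num) (le_max_right _ _)
  refine ⟨Real.sqrt ((k1 ^ 9)⁻¹) / 2, by positivity, ?_⟩
  intro Γ _ S ε hε Rn
  -- constants
  obtain ⟨κ0, -, hκ0⟩ := exists_bound S (fun s : Γ => max (rA (s : G3)) (rB (s : G3)))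
  set κ : ℝ := max κ0 1 with hκ
  have hκ1 : 1 ≤ κ := le_max_right _ _
  have hκp : 0 < κ := by linarith
  have hsA : ∀ s ∈ S, rA (s : G3) ≤ κ := fun s hs =>
    ((le_max_left _ _).trans (hκ0 s hs)).trans (le_max_left _ _)
  have hsB : ∀ s ∈ S, rB (s : G3) ≤ κ := fun s hs =>
    ((le_max_right _ _).trans (hκ0 s hs)).trans (le_max_left _ _)
  set δ : ℝ := Real.log (1 + ε / 4) / 18 with hδ
  have hδp : 0 < δ := div_pos (Real.log_pos (by linarith)) (by norm_num)
  have hr18 : ((Real.exp δ) ^ 9) ^ 2 - 1 = ε / 4 := exp_delta (by linarith)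
  obtain ⟨L, M, hL0, hM, hcmp⟩ := left_cmp hC0 hL hκp hδp
  set η : ℝ := δ / 2 with hη
  have hηp : 0 < η := by rw [hη]; linarith
  have hlogκ : 0 ≤ Real.log κ := Real.log_nonneg hκ1
  obtain ⟨K, hK⟩ := exists_nat_gt (8 * (3 * Real.log κ / η + 1) / ε)
  have hKp' : (0 : ℝ) < K := lt_of_le_of_lt (by positivity) hK
  have hKp : 0 < K := by exact_mod_cast hKp'
  set T : ℝ := L + K * η with hT
  set Rm : ℝ := κ ^ 3 * max Rn 1 with hRm
  have hκ3 : 1 ≤ κ ^ 3 := one_le_pow₀ hκ1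
  have hRn1 : 1 ≤ max Rn 1 := le_max_right _ _
  have hRm1 : 1 ≤ Rm := by nlinarith
  have hRnRm : Rn ≤ Rm := by
    have : Rn ≤ max Rn 1 := le_max_left _ _
    nlinarith
  set c0 : ℝ := Real.exp (-T) / Rm with hc0
  have hc0p : 0 < c0 := div_pos (Real.exp_pos _) (by linarith)
  set τ : ℝ := min (ε / 4) (1 / 2) with hτ
  have hτp : 0 < τ := lt_min (by linarith) (by norm_num)
  have hsumm := H377.summable_rA.comp_injective (Subtype.val_injective (p := (· ∈ Γ)))
  obtain ⟨B, hB⟩ := exists_tail (w := fun b : Γ => rA (b : G3)) (c := c0)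
    (C := 2 * rA ((1 : Γ) : G3)) (fun b => rA_pos _) hsumm hc0p 1 hτp
  -- the gauges
  have pN : ∀ (g : Γ) (t : ℝ) (b : Γ), 0 < fN t g b := fun g t b => fN_pos _ _ _
  have p0 : ∀ (g : Γ) (t : ℝ) (b : Γ), 0 < f0 t g b := fun g t b => f0_pos _ _ _
  have sN : ∀ (g : Γ) (t : ℝ), Summable (uw fun b : Γ => fN t g b) := fun g t =>
    uw_summable (w := fun b : Γ => rA (b : G3)) (fun b => rA_pos _) hsumm
      (div_pos (Real.exp_pos (-t)) (G12_pos (g : G3)))
      (fun b => by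
        have := fN_ge t (g : G3) b
        calc Real.exp (-t) / G12 (g : G3) * rA (b : G3) =
            Real.exp (-t) * (rA (b : G3) / G12 (g : G3)) := by ring
          _ ≤ _ := this)
  have s0 : ∀ (g : Γ) (t : ℝ), Summable (uw fun b : Γ => f0 t g b) := fun g t =>
    uw_summable (w := fun b : Γ => rA (b : G3)) (fun b => rA_pos _) hsumm (Real.exp_pos (-t))
      (fun b => f0_ge t g b)
  set νN : Γ → Γ → ℝ := fun b g => na (fun t (b : Γ) => fN t g b) L η K b with hνN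
  set ν0 : Γ → Γ → ℝ := fun b g => na (fun t (b : Γ) => f0 t g b) L η K b with hν0
  have nN0 : ∀ b g, 0 ≤ νN b g := fun b g => na_nonneg (pN g) _ _ _ _
  have n00 : ∀ b g, 0 ≤ ν0 b g := fun b g => na_nonneg (p0 g) _ _ _ _
  have nN1 : ∀ g (T : Finset Γ), ∑ b ∈ T, νN b g ≤ 1 := fun g T =>
    na_sum_le (pN g) (sN g) L η hKp T
  have n01 : ∀ g (T : Finset Γ), ∑ b ∈ T, ν0 b g ≤ 1 := fun g T =>
    na_sum_le (p0 g) (s0 g) L η hKp T
  -- grid points
  have hgr : ∀ i : ℕ, i < K → 0 ≤ L + ((i : ℤ) : ℝ) * η ∧ L + ((i : ℤ) : ℝ) * η ≤ T := by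
    intro i hi
    have a1 : ((i : ℤ) : ℝ) = (i : ℝ) := by push_cast; rfl
    have a2 : (i : ℝ) ≤ K := by exact_mod_cast hi.le
    rw [a1, hT]
    constructor
    · positivity
    · have : (i : ℝ) * η ≤ K * η := mul_le_mul_of_nonneg_right a2 hηp.le
      linarith
  have hc0le : ∀ t, t ≤ T → ∀ (g : Γ), G12 (g : G3) ≤ Rm → ∀ b : Γ,
      c0 * rA (b : G3) ≤ fN t g b := by
    intro t ht g hg b
    refine le_trans ?_ (fN_ge t (g : G3) b)
    have h1 : Real.exp (-T) ≤ Real.exp (-t) := Real.exp_le_exp.2 (by linarith)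
    have h2 : rA (b : G3) / Rm ≤ rA (b : G3) / G12 (g : G3) :=
      div_le_div_of_nonneg_left (rA_pos _).le (G12_pos _) hg
    calc c0 * rA (b : G3) = Real.exp (-T) * (rA (b : G3) / Rm) := by rw [hc0]; ring
      _ ≤ _ := mul_le_mul h1 h2 (div_nonneg (rA_pos _).le (by linarith)) (Real.exp_pos _).le
  have hc0le' : ∀ t, t ≤ T → ∀ (g b : Γ), c0 * rA (b : G3) ≤ f0 t g b := by
    intro t ht g b
    refine le_trans ?_ (f0_ge t (g : G3) b)
    refine mul_le_mul_of_nonneg_right ?_ (rA_pos _).le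
    have h1 : Real.exp (-T) ≤ Real.exp (-t) := Real.exp_le_exp.2 (by linarith)
    rw [hc0]
    exact (div_le_self (Real.exp_pos _).le hRm1).trans h1
  have massN : ∀ g : Γ, G12 (g : G3) ≤ Rm → 1 - τ ≤ ∑ b ∈ B, νN b g := fun g hg =>
    le_na_sum _ L η hKp B fun i hi => hB B Subset.rfl _ (hc0le _ (hgr i hi).2 g hg)
      (fN_le _ _ _ (hgr i hi).1)
  have mass0 : ∀ g : Γ, 1 - τ ≤ ∑ b ∈ B, ν0 b g := fun g =>
    le_na_sum _ L η hKp B fun i hi => hB B Subset.rfl _ (hc0le' _ (hgr i hi).2 g)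
      (f0_le _ _ _ (hgr i hi).1)
  have htail : ∀ g : Γ, G12 (g : G3) ≤ Rm → ∀ T : Finset Γ,
      ∑ b ∈ T, (if b ∈ B then 0 else νN b g) ≤ ε / 4 := by
    intro g hg T
    have e1 : ∑ b ∈ T, (if b ∈ B then 0 else νN b g) =
        ∑ b ∈ T.filter (fun b => b ∉ B), νN b g := by
      rw [sum_filter]
      exact sum_congr rfl fun b _ => by by_cases hb : b ∈ B <;> simp [hb]
    have hdis : Disjoint (T.filter (fun b => b ∉ B)) B :=
      disjoint_left.2 fun b hb hb' => (mem_filter.1 hb).2 hb'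
    have e2 := nN1 g (T.filter (fun b => b ∉ B) ∪ B)
    rw [sum_union hdis] at e2
    have e3 := massN g hg
    have e4 : τ ≤ ε / 4 := min_le_left _ _
    rw [e1]
    linarith
  refine ⟨B, fun b g => if b ∈ B then Real.sqrt (νN b g) else 0,
    fun b g => if b ∈ B then Real.sqrt (ν0 b g) else 0, M,
    18 * (1 + 2 * Real.exp T) ^ 17 * Real.exp T, ?_, ?_, ?_, ?_, ?_, ?_, ?_, ?_, ?_⟩
  · intro b h
    dsimp only
    split_ifs
    · exact Real.sqrt_nonneg _
    · exact le_rfl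
  · intro b hb h
    simp [hb]
  · intro h
    have e : ∀ b ∈ B, (if b ∈ B then Real.sqrt (νN b h) else 0) ^ 2 = νN b h := fun b hb => by
      rw [if_pos hb, Real.sq_sqrt (nN0 b h)]
    exact (sum_congr rfl e).trans_le (nN1 h B)
  · intro s hs h hh hMh
    obtain ⟨p, m, hp, hm, hpm⟩ := hcmp s h (hsA s hs) (hsB s hs) hMh
    have hGsh : G12 ((s * h : Γ) : G3) ≤ Rm := by
      have a1 := G12_mul_le (hsA s hs) (hsB s hs) (h : G3)
      have a2 : G12 (h : G3) ≤ max Rn 1 := hh.trans (le_max_left _ _)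
      have a3 : κ ^ 3 * G12 (h : G3) ≤ κ ^ 3 * max Rn 1 :=
        mul_le_mul_of_nonneg_left a2 (by positivity)
      exact a1.trans a3
    set B' := B ∪ B.image (fun b => s⁻¹ * b) with hB'
    have hmain := na_cmp (F := fun t (b : Γ) => fN t ((s * h : Γ) : G3) ((s * b : Γ) : G3))
      (G := fun t (b : Γ) => fN t (h : G3) (b : G3)) (fun t b => fN_pos _ _ _)
      (fun t b => fN_pos _ _ _)
      (fun t => ((Equiv.mulLeft s).summable_iff (f := uw fun b : Γ => fN t ((s * h : Γ) : G3) b)).2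
        (sN (s * h) t)) (sN h) (L := L) (h := η) hKp hp (Real.one_le_exp hδp.le) m
      (fun i _ b => (hpm i b).1) (fun i _ b => (hpm i b).2) B'
    rw [hr18] at hmain
    have e1 : ∀ b : Γ, na (fun t (b : Γ) => fN t ((s * h : Γ) : G3) ((s * b : Γ) : G3)) L η K b =
        νN (s * b) (s * h) := fun b =>
      na_mul_left (fun t (b : Γ) => fN t ((s * h : Γ) : G3) (b : G3)) L η K s b
    simp only [e1] at hmain
    have hbound : 2 * |(m : ℝ)| / K ≤ ε / 4 := by
      rw [div_le_iff₀ hKp']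
      rw [div_lt_iff₀ hε] at hK
      linarith
    have hpt : ∀ b ∈ B', ((if s * b ∈ B then Real.sqrt (νN (s * b) (s * h)) else 0) -
        (if b ∈ B then Real.sqrt (νN b h) else 0)) ^ 2 ≤
        |νN (s * b) (s * h) - νN b h| +
          ((if s * b ∈ B then 0 else νN (s * b) (s * h)) + (if b ∈ B then 0 else νN b h)) := by
      intro b _
      have n1 := nN0 (s * b) (s * h)
      have n2 := nN0 b h
      set x := νN (s * b) (s * h)
      set y := νN b h
      have n3 := abs_nonneg (x - y)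
      by_cases c1 : s * b ∈ B <;> by_cases c2 : b ∈ B <;> simp only [c1, c2, if_true, if_false]
      · linarith [sqrt_sub_sq_le n1 n2]
      · rw [sub_zero, Real.sq_sqrt n1]
        have := le_abs_self (x - y)
        linarith
      · rw [zero_sub, neg_sq, Real.sq_sqrt n2]
        have := neg_abs_le (x - y)
        linarith
      · rw [sub_zero]; nlinarith
    refine (sum_le_sum hpt).trans ?_
    rw [sum_add_distrib, sum_add_distrib]
    have ht1 := htail h (hh.trans hRnRm) B'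
    have ht2 : ∑ b ∈ B', (if s * b ∈ B then 0 else νN (s * b) (s * h)) ≤ ε / 4 := by
      have := htail (s * h) hGsh (B'.image fun b => s * b)
      rwa [sum_image fun a _ b _ hab => mul_left_cancel hab] at this
    linarith
  · intro b h
    dsimp only
    split_ifs
    · exact Real.sqrt_nonneg _
    · exact le_rfl
  · intro b hb h
    simp [hb]
  · intro h
    have e : ∀ b ∈ B, (if b ∈ B then Real.sqrt (ν0 b h) else 0) ^ 2 = ν0 b h := fun b hb => by
      rw [if_pos hb, Real.sq_sqrt (n00 b h)]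
    exact (sum_congr rfl e).trans_le (n01 h B)
  · intro b h h'
    dsimp only
    set d := Real.sqrt (hs (NS (h : G3) - NS (h' : G3))) with hd
    have hd0 : 0 ≤ d := Real.sqrt_nonneg _
    by_cases hb : b ∈ B
    swap
    · simp only [hb, if_false, sub_zero, abs_zero]; positivity
    simp only [hb, if_true]
    set kk : ℝ := 18 * (1 + 2 * Real.exp T) ^ 17 * Real.exp T * d with hkk
    have hle : |ν0 b h' - ν0 b h| ≤ kk * ν0 b h := by
      have e1 : ν0 b h' - ν0 b h = (∑ i ∈ range K,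
          (bw (fun b : Γ => f0 (L + (i : ℤ) * η) h' b) b -
            bw (fun b : Γ => f0 (L + (i : ℤ) * η) h b) b)) / K := by
        simp only [hν0, na, sum_sub_distrib, sub_div]
      have e2 : kk * ν0 b h = (∑ i ∈ range K,
          kk * bw (fun b : Γ => f0 (L + (i : ℤ) * η) h b) b) / K := by
        simp only [hν0, na, ← mul_sum, mul_div_assoc]
      rw [e1, e2, abs_div, abs_of_pos hKp']
      refine div_le_div_of_nonneg_right ?_ hKp'.le
      exact (abs_sum_le_sum_abs _ _).trans (sum_le_sum fun i hi =>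
        bw_f0_lip Γ (hgr i (mem_range.1 hi)).2 h h' b)
    have hpos : 0 < ν0 b h := by
      have : 0 < ∑ i ∈ range K, bw (fun b : Γ => f0 (L + (i : ℤ) * η) h b) b :=
        sum_pos (fun i _ => div_pos (uw_pos (p0 h _) b)
          (tsum_uw_pos (p0 h _) (s0 h _))) ⟨0, mem_range.2 hKp⟩
      exact div_pos this hKp'
    have h1 : ν0 b h ≤ 1 := by simpa using n01 h {b}
    exact abs_sqrt_sub_le hpos h1 (n00 b h') hle
  · intro h hR1 _
    have hk : ∀ b : Γ, (k1 ^ 9)⁻¹ * ν0 b h ≤ νN b h := fun b =>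
      na_ge (pN h) (p0 h) (sN h) (s0 h) hk1p (fun t b => fN_le_f0 t _ _)
        (fun t b => (f0_le_fN t (h : G3) b).trans
          (mul_le_mul_of_nonneg_right (hR1.trans (le_max_left _ _)) (fN_pos _ _ _).le)) L η K b
    have hcc : 0 ≤ (k1 ^ 9)⁻¹ := by positivity
    have hpt : ∀ b ∈ B, Real.sqrt ((k1 ^ 9)⁻¹) * ν0 b h ≤
        (if b ∈ B then Real.sqrt (νN b h) else 0) * (if b ∈ B then Real.sqrt (ν0 b h) else 0) := by
      intro b hb
      simp only [hb, if_true]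
      have e1 : Real.sqrt ((k1 ^ 9)⁻¹) * ν0 b h =
          Real.sqrt ((k1 ^ 9)⁻¹ * ν0 b h) * Real.sqrt (ν0 b h) := by
        rw [Real.sqrt_mul hcc, mul_assoc, Real.mul_self_sqrt (n00 b h)]
      rw [e1]
      exact mul_le_mul_of_nonneg_right (Real.sqrt_le_sqrt (hk b)) (Real.sqrt_nonneg _)
    refine le_trans ?_ (sum_le_sum hpt)
    rw [← mul_sum]
    have e2 := mass0 h
    have e3 : τ ≤ 1 / 2 := min_le_right _ _
    have e4 : (1 : ℝ) / 2 ≤ ∑ b ∈ B, ν0 b h := by linarith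
    calc Real.sqrt ((k1 ^ 9)⁻¹) / 2 = Real.sqrt ((k1 ^ 9)⁻¹) * (1 / 2) := by ring
      _ ≤ _ := mul_le_mul_of_nonneg_left e4 (Real.sqrt_nonneg _)

end Vale.Agent.P092.H918
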