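import Vale.Agent.P092.H918.Wall
import Vale.Agent.P092.H175.NLeft

/-!
P092 (helper918): block N1 of helper859's Theorem N, complete.
-/

namespace Vale.Agent.P092.H918

open Vale.Agent.P092.H553 Vale.Agent.P092.H132

lemma one_le_of_rA_rB {κ : ℝ} {s : G3} (h1 : rA s ≤ κ) : 1 ≤ κ :=
  (one_le_rA s).trans h1

theorem leftN : LeftN := by
  refine ⟨10, by norm_num, ?_⟩
  intro κ θ e t s g b h1 h2 he h23 ht hθ
  have hκ : 1 ≤ κ := one_le_of_rA_rB h1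
  have hθ0 : 0 ≤ θ := (Real.exp_pos _).le.trans ht
  have he0 : 0 ≤ e := le_trans (div_nonneg (by norm_num) (by linarith [G23_ge g])) h23
  have main := H175.left_estN (t := t) (g := g) (b := b) h1 h2 he h23 ht hθ
  refine main.trans (mul_le_mul_of_nonneg_right ?_ (fN_pos t g b).le)
  have h3 : κ ^ 2 ≤ κ ^ 3 := pow_le_pow_right₀ hκ (by norm_num)
  have h4 : κ ^ 2 * (θ + e) ≤ κ ^ 3 * (θ + e) := mul_le_mul_of_nonneg_right h3 (by linarith)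
  have h5 : 0 ≤ κ ^ 2 * e := by positivity
  linarith

/-- Block N1 (#2081). -/
theorem wall_fun (R1 : ℝ) :
    ∃ c : ℝ, 0 < c ∧ ∀ (Γ : Subgroup G3) [DecidableEq Γ] (S : Finset Γ) (ε : ℝ), 0 < ε →
      ∀ Rn : ℝ, ∃ (B : Finset Γ) (α β : Γ → Γ → ℝ) (M L : ℝ),
        (∀ b h, 0 ≤ α b h) ∧ (∀ b ∉ B, ∀ h, α b h = 0) ∧ (∀ h, ∑ b ∈ B, α b h ^ 2 ≤ 1) ∧
        (∀ s ∈ S, ∀ h : Γ, G12 (h : G3) ≤ Rn → M ≤ G23 (h : G3) →
          ∑ b ∈ B ∪ B.image (fun b => s⁻¹ * b), (α (s * b) (s * h) - α b h) ^ 2 ≤ ε) ∧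
        (∀ b h, 0 ≤ β b h) ∧ (∀ b ∉ B, ∀ h, β b h = 0) ∧ (∀ h, ∑ b ∈ B, β b h ^ 2 ≤ 1) ∧
        (∀ b h h', |β b h - β b h'| ≤ L * Real.sqrt (hs (NS (h : G3) - NS (h' : G3)))) ∧
        (∀ h : Γ, G12 (h : G3) ≤ R1 → M ≤ G23 (h : G3) → c ≤ ∑ b ∈ B, α b h * β b h) :=
  wall_fun_of leftN R1

end Vale.Agent.P092.H918
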